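/-
Helper1 / S0453, WP-D2 support: three log-concave sequences conditioned on their sum.
Model-side facts used by every proof of (1D) (notes/s0453/PROOF.md §4 (a)):

* `lc_four`       : four-point inequality `f a * f e ≤ f b * f c` (`e ≤ b, c ≤ a`, `a + e = b + c`).
* `mon`           : `P(l_j > u | l_i = x)` is nonincreasing in `x` (cross-multiplied form).
* `supp_interval` : the support of the law of `l_i` is an interval.
-/
import Mathlib

set_option autoImplicit false

namespace Crest.Agent.Helper1.SW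

open Finset

section seq

variable (f : ℕ → ℝ) (h0 : ∀ k, 0 ≤ f k) (hlc : ∀ k, f k * f (k + 2) ≤ f (k + 1) ^ 2)
  (hint : ∀ a b c, a ≤ b → b ≤ c → 0 < f a → 0 < f c → 0 < f b)

include h0 hlc hint in
theorem lc_step : ∀ n d, f d * f (d + n + 1) ≤ f (d + 1) * f (d + n) := by
  intro n
  induction n with
  | zero =>
    intro d
    simp only [add_zero]
    exact le_of_eq (mul_comm _ _)
  | succ n ih =>
    intro d
    have ih1 := ih (d + 1)
    have e1 : d + 1 + n + 1 = d + (n + 1) + 1 := by ring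
    have e2 : d + 1 + n = d + (n + 1) := by ring
    rw [e1, e2] at ih1
    have hl := hlc d
    rcases (h0 (d + 1)).lt_or_eq with hpos | hzero
    · -- divide by f (d+1) > 0
      have h1 : f d * f (d + (n + 1) + 1) * f (d + 1) ≤ f (d + 1) * f (d + (n + 1)) * f (d + 1) := by
        calc f d * f (d + (n + 1) + 1) * f (d + 1)
            = f d * (f (d + 1) * f (d + (n + 1) + 1)) := by ring
          _ ≤ f d * (f (d + 1 + 1) * f (d + (n + 1))) := mul_le_mul_of_nonneg_left ih1 (h0 d)
          _ = (f d * f (d + 2)) * f (d + (n + 1)) := by ring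
          _ ≤ f (d + 1) ^ 2 * f (d + (n + 1)) := mul_le_mul_of_nonneg_right hl (h0 _)
          _ = f (d + 1) * f (d + (n + 1)) * f (d + 1) := by ring
      exact le_of_mul_le_mul_right h1 hpos
    · -- f (d+1) = 0: one of the outer values vanishes
      rw [← hzero, zero_mul]
      by_contra hcon
      push Not at hcon
      have hd : 0 < f d := by
        rcases (h0 d).lt_or_eq with h | h
        · exact h
        · rw [← h, zero_mul] at hcon
          exact absurd hcon (lt_irrefl _)
      have he : 0 < f (d + (n + 1) + 1) := by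
        rcases (h0 (d + (n + 1) + 1)).lt_or_eq with h | h
        · exact h
        · rw [← h, mul_zero] at hcon
          exact absurd hcon (lt_irrefl _)
      have := hint d (d + 1) (d + (n + 1) + 1) (by omega) (by omega) hd he
      rw [← hzero] at this
      exact lt_irrefl _ this

include h0 hlc hint in
theorem lc_shrink : ∀ s e a, e + 2 * s ≤ a → f e * f a ≤ f (e + s) * f (a - s) := by
  intro s
  induction s with
  | zero =>
    intro e a _
    simp
  | succ s ih =>
    intro e a h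
    have h1 := lc_step f h0 hlc hint (a - e - 1) e
    have e1 : e + (a - e - 1) + 1 = a := by omega
    have e2 : e + (a - e - 1) = a - 1 := by omega
    rw [e1, e2] at h1
    have h2 := ih (e + 1) (a - 1) (by omega)
    have e3 : e + 1 + s = e + (s + 1) := by ring
    have e4 : a - 1 - s = a - (s + 1) := by omega
    rw [e3, e4] at h2
    exact h1.trans h2

include h0 hlc hint in
/-- Four-point inequality for a log-concave sequence without internal zeros. -/
theorem lc_four (a b c e : ℕ) (heb : e ≤ b) (hba : b ≤ a) (_hec : e ≤ c) (_hca : c ≤ a)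
    (hsum : a + e = b + c) : f a * f e ≤ f b * f c := by
  rcases le_total b c with hbc | hcb
  · have h := lc_shrink f h0 hlc hint (b - e) e a (by omega)
    have e1 : e + (b - e) = b := by omega
    have e2 : a - (b - e) = c := by omega
    rw [e1, e2] at h
    rw [mul_comm]
    exact h
  · have h := lc_shrink f h0 hlc hint (c - e) e a (by omega)
    have e1 : e + (c - e) = c := by omega
    have e2 : a - (c - e) = b := by omega
    rw [e1, e2] at h
    rw [mul_comm, mul_comm (f b)]
    exact h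

end seq

/-! ### Three sequences conditioned on the sum -/

section three

/-- the tuple with value `x` at `i`, `y` at `j` and `z` elsewhere -/
def tup (i j : Fin 3) (x y z : ℕ) : Fin 3 → ℕ := fun a => if a = i then x else if a = j then y else z

theorem exists_third : ∀ i j : Fin 3, i ≠ j → ∃ k, k ≠ i ∧ k ≠ j := by decide

theorem sum3 {M : Type*} [AddCommMonoid M] :
    ∀ (i j k : Fin 3), i ≠ j → k ≠ i → k ≠ j → ∀ f : Fin 3 → M, ∑ a, f a = f i + f j + f k := by
  intro i j k hij hki hkj f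
  rw [Fin.sum_univ_three]
  fin_cases i <;> fin_cases j <;> fin_cases k <;> simp at hij hki hkj ⊢ <;> abel

theorem prod3 {M : Type*} [CommSemiring M] :
    ∀ (i j k : Fin 3), i ≠ j → k ≠ i → k ≠ j → ∀ f : Fin 3 → M, ∏ a, f a = f i * f j * f k := by
  intro i j k hij hki hkj f
  rw [Fin.prod_univ_three]
  fin_cases i <;> fin_cases j <;> fin_cases k <;> simp at hij hki hkj ⊢ <;> ring

theorem eq_third : ∀ i j k a : Fin 3, i ≠ j → k ≠ i → k ≠ j → a ≠ i → a ≠ j → a = k := by decide

theorem tup_i (i j : Fin 3) (x y z : ℕ) : tup i j x y z i = x := by simp [tup]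

theorem tup_j (i j : Fin 3) (hij : i ≠ j) (x y z : ℕ) : tup i j x y z j = y := by
  simp [tup, hij.symm]

theorem tup_k (i j k : Fin 3) (hki : k ≠ i) (hkj : k ≠ j) (x y z : ℕ) : tup i j x y z k = z := by
  simp [tup, hki, hkj]

variable (p : Fin 3 → ℕ → ℝ) (m : ℕ)

/-- Reindexing of a fibre sum `l i = x` by the value `y = l j`. -/
theorem sum_fiber (i j k : Fin 3) (hij : i ≠ j) (hki : k ≠ i) (hkj : k ≠ j) (x : ℕ)
    (P : ℕ → Prop) [DecidablePred P] :
    ∑ l ∈ (Finset.Nat.antidiagonalTuple 3 m).filter (fun l => l i = x ∧ P (l j)),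
        ∏ a, p a (l a)
      = ∑ y ∈ (range (m + 1)).filter (fun y => P y ∧ x + y ≤ m),
          p i x * p j y * p k (m - x - y) := by
  refine Finset.sum_nbij' (fun l => l j) (fun y => tup i j x y (m - x - y)) ?_ ?_ ?_ ?_ ?_
  · intro l hl
    simp only [mem_filter, Finset.Nat.mem_antidiagonalTuple] at hl
    obtain ⟨hs, hx, hP⟩ := hl
    rw [sum3 i j k hij hki hkj] at hs
    simp only [mem_filter, mem_range]
    exact ⟨by omega, hP, by omega⟩
  · intro y hy
    simp only [mem_filter, mem_range] at hy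
    obtain ⟨hy1, hP, hy2⟩ := hy
    simp only [mem_filter, Finset.Nat.mem_antidiagonalTuple]
    refine ⟨?_, tup_i i j x y _, ?_⟩
    · rw [sum3 i j k hij hki hkj, tup_i, tup_j i j hij, tup_k i j k hki hkj]
      omega
    · rw [tup_j i j hij]
      exact hP
  · intro l hl
    simp only [mem_filter, Finset.Nat.mem_antidiagonalTuple] at hl
    obtain ⟨hs, hx, hP⟩ := hl
    rw [sum3 i j k hij hki hkj] at hs
    funext a
    by_cases hai : a = i
    · subst hai
      rw [tup_i]
      exact hx.symm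
    · by_cases haj : a = j
      · subst haj
        rw [tup_j i a hij]
      · have hak : a = k := eq_third i j k a hij hki hkj hai haj
        subst hak
        rw [tup_k i j a hki hkj]
        omega
  · intro y hy
    exact tup_j i j hij _ _ _
  · intro l hl
    simp only [mem_filter, Finset.Nat.mem_antidiagonalTuple] at hl
    obtain ⟨hs, hx, hP⟩ := hl
    rw [sum3 i j k hij hki hkj] at hs
    rw [prod3 i j k hij hki hkj, hx]
    congr 2
    omega

theorem sum_fiber_all (i j k : Fin 3) (hij : i ≠ j) (hki : k ≠ i) (hkj : k ≠ j) (x : ℕ) :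
    ∑ l ∈ (Finset.Nat.antidiagonalTuple 3 m).filter (fun l => l i = x), ∏ a, p a (l a)
      = ∑ y ∈ (range (m + 1)).filter (fun y => x + y ≤ m),
          p i x * p j y * p k (m - x - y) := by
  have h := sum_fiber p m i j k hij hki hkj x (fun _ => True)
  simp only [and_true, true_and] at h
  exact h

/-- fibre sum as `p i x` times a sum over `range (m+1)` of a guarded product -/
theorem fibP (i j k : Fin 3) (hij : i ≠ j) (hki : k ≠ i) (hkj : k ≠ j) (x : ℕ)
    (P : ℕ → Prop) [DecidablePred P] :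
    ∑ l ∈ (Finset.Nat.antidiagonalTuple 3 m).filter (fun l => l i = x ∧ P (l j)),
        ∏ a, p a (l a)
      = p i x * ∑ y ∈ (range (m + 1)).filter P,
          (if x + y ≤ m then p j y * p k (m - x - y) else 0) := by
  rw [sum_fiber p m i j k hij hki hkj x P, ← Finset.filter_filter, Finset.sum_filter,
    Finset.mul_sum]
  refine Finset.sum_congr rfl (fun y _ => ?_)
  split_ifs
  · ring
  · ring

theorem fibAll (i j k : Fin 3) (hij : i ≠ j) (hki : k ≠ i) (hkj : k ≠ j) (x : ℕ) :
    ∑ l ∈ (Finset.Nat.antidiagonalTuple 3 m).filter (fun l => l i = x), ∏ a, p a (l a)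
      = p i x * ∑ y ∈ range (m + 1),
          (if x + y ≤ m then p j y * p k (m - x - y) else 0) := by
  rw [sum_fiber_all p m i j k hij hki hkj x, Finset.sum_filter, Finset.mul_sum]
  refine Finset.sum_congr rfl (fun y _ => ?_)
  split_ifs
  · ring
  · ring

theorem cross_ineq (R : Finset ℕ) (u : ℕ) (a b : ℕ → ℝ)
    (h : ∀ y ∈ R, ∀ y' ∈ R, u < y → y' ≤ u → b y * a y' ≤ a y * b y') :
    (∑ y ∈ R.filter (fun y => u < y), b y) * (∑ y ∈ R, a y)
      ≤ (∑ y ∈ R.filter (fun y => u < y), a y) * (∑ y ∈ R, b y) := by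
  rw [← Finset.sum_filter_add_sum_filter_not R (fun y => u < y) a,
    ← Finset.sum_filter_add_sum_filter_not R (fun y => u < y) b, mul_add, mul_add]
  have h1 : (∑ y ∈ R.filter (fun y => u < y), b y) * (∑ y ∈ R.filter (fun y => u < y), a y)
      = (∑ y ∈ R.filter (fun y => u < y), a y) * (∑ y ∈ R.filter (fun y => u < y), b y) :=
    mul_comm _ _
  have h2 : (∑ y ∈ R.filter (fun y => u < y), b y) * (∑ y ∈ R.filter (fun y => ¬ u < y), a y)
      ≤ (∑ y ∈ R.filter (fun y => u < y), a y) * (∑ y ∈ R.filter (fun y => ¬ u < y), b y) := by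
    rw [Finset.sum_mul_sum, Finset.sum_mul_sum]
    apply Finset.sum_le_sum
    intro y hy
    apply Finset.sum_le_sum
    intro y' hy'
    simp only [mem_filter, not_lt] at hy hy'
    exact h y hy.1 y' hy'.1 hy.2 hy'.2
  linarith

/-- **(MON)**: `P(l_j > u | l_i = x)` is nonincreasing in `x` (cross-multiplied). -/
theorem mon (hp : ∀ i k, 0 ≤ p i k)
    (hlc : ∀ i k, p i k * p i (k + 2) ≤ p i (k + 1) ^ 2)
    (hint : ∀ i a b c, a ≤ b → b ≤ c → 0 < p i a → 0 < p i c → 0 < p i b)
    (i j : Fin 3) (hij : i ≠ j) (u x : ℕ) :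
    (∑ l ∈ (Finset.Nat.antidiagonalTuple 3 m).filter (fun l => l i = x + 1 ∧ u < l j),
        ∏ a, p a (l a))
      * (∑ l ∈ (Finset.Nat.antidiagonalTuple 3 m).filter (fun l => l i = x), ∏ a, p a (l a))
    ≤ (∑ l ∈ (Finset.Nat.antidiagonalTuple 3 m).filter (fun l => l i = x ∧ u < l j),
        ∏ a, p a (l a))
      * (∑ l ∈ (Finset.Nat.antidiagonalTuple 3 m).filter (fun l => l i = x + 1),
        ∏ a, p a (l a)) := by
  obtain ⟨k, hki, hkj⟩ := exists_third i j hij
  rw [fibP p m i j k hij hki hkj (x + 1) (fun y => u < y), fibAll p m i j k hij hki hkj x,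
    fibP p m i j k hij hki hkj x (fun y => u < y), fibAll p m i j k hij hki hkj (x + 1)]
  have key := cross_ineq (range (m + 1)) u
    (fun y => if x + y ≤ m then p j y * p k (m - x - y) else 0)
    (fun y => if x + 1 + y ≤ m then p j y * p k (m - (x + 1) - y) else 0) ?_
  · calc p i (x + 1) * (∑ y ∈ (range (m + 1)).filter (fun y => u < y),
            (if x + 1 + y ≤ m then p j y * p k (m - (x + 1) - y) else 0))
          * (p i x * ∑ y ∈ range (m + 1), (if x + y ≤ m then p j y * p k (m - x - y) else 0))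
        = (p i (x + 1) * p i x) * ((∑ y ∈ (range (m + 1)).filter (fun y => u < y),
            (if x + 1 + y ≤ m then p j y * p k (m - (x + 1) - y) else 0))
          * (∑ y ∈ range (m + 1), (if x + y ≤ m then p j y * p k (m - x - y) else 0))) := by ring
      _ ≤ (p i (x + 1) * p i x) * ((∑ y ∈ (range (m + 1)).filter (fun y => u < y),
            (if x + y ≤ m then p j y * p k (m - x - y) else 0))
          * (∑ y ∈ range (m + 1),
            (if x + 1 + y ≤ m then p j y * p k (m - (x + 1) - y) else 0))) :=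
        mul_le_mul_of_nonneg_left key (mul_nonneg (hp _ _) (hp _ _))
      _ = _ := by ring
  · intro y _ y' _ huy hy'u
    by_cases h1 : x + 1 + y ≤ m
    · rw [if_pos h1, if_pos (show x + y' ≤ m by omega), if_pos (show x + y ≤ m by omega),
        if_pos (show x + 1 + y' ≤ m by omega)]
      have hk := lc_four (p k) (hp k) (hlc k) (hint k) (m - x - y') (m - x - y)
        (m - (x + 1) - y') (m - (x + 1) - y) (by omega) (by omega) (by omega) (by omega)
        (by omega)
      calc p j y * p k (m - (x + 1) - y) * (p j y' * p k (m - x - y'))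
          = (p j y * p j y') * (p k (m - x - y') * p k (m - (x + 1) - y)) := by ring
        _ ≤ (p j y * p j y') * (p k (m - x - y) * p k (m - (x + 1) - y')) :=
          mul_le_mul_of_nonneg_left hk (mul_nonneg (hp _ _) (hp _ _))
        _ = _ := by ring
    · rw [if_neg h1, zero_mul]
      apply mul_nonneg
      · split_ifs
        · exact mul_nonneg (hp _ _) (hp _ _)
        · exact le_refl _
      · split_ifs
        · exact mul_nonneg (hp _ _) (hp _ _)
        · exact le_refl _

theorem exists_two : ∀ i : Fin 3, ∃ j k, i ≠ j ∧ k ≠ i ∧ k ≠ j := by decide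

theorem pos3 {a b c : ℝ} (ha : 0 ≤ a) (hb : 0 ≤ b) (hc : 0 ≤ c) (h : 0 < a * b * c) :
    0 < a ∧ 0 < b ∧ 0 < c := by
  refine ⟨?_, ?_, ?_⟩
  · rcases ha.lt_or_eq with h' | h'
    · exact h'
    · rw [← h'] at h; simp at h
  · rcases hb.lt_or_eq with h' | h'
    · exact h'
    · rw [← h'] at h; simp at h
  · rcases hc.lt_or_eq with h' | h'
    · exact h'
    · rw [← h'] at h; simp at h

theorem exists_split0 (B0 B1 C0 C1 s : ℕ) (h0 : B0 + C0 ≤ s) (h1 : s ≤ B1 + C1) (hB : B0 ≤ B1)
    (hC : C0 ≤ C1) : ∃ b c, B0 ≤ b ∧ b ≤ B1 ∧ C0 ≤ c ∧ c ≤ C1 ∧ b + c = s := by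
  by_cases h : s - C0 ≤ B1
  · exact ⟨s - C0, C0, by omega, h, le_refl _, hC, by omega⟩
  · exact ⟨B1, s - B1, hB, le_refl _, by omega, by omega, by omega⟩

theorem exists_split (b1 b2 c1 c2 s : ℕ) (h0 : b2 + c2 ≤ s) (h1 : s ≤ b1 + c1) :
    ∃ b c, (b1 ≤ b ∧ b ≤ b2 ∨ b2 ≤ b ∧ b ≤ b1) ∧ (c1 ≤ c ∧ c ≤ c2 ∨ c2 ≤ c ∧ c ≤ c1)
      ∧ b + c = s := by
  rcases le_total b1 b2 with hb | hb <;> rcases le_total c1 c2 with hc | hc
  · exact ⟨b1, c1, Or.inl ⟨le_refl _, hb⟩, Or.inl ⟨le_refl _, hc⟩, by omega⟩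
  · obtain ⟨b, c, hb0, hb1, hc0, hc1, hs⟩ :=
      exists_split0 b1 b2 c2 c1 s (by omega) (by omega) hb hc
    exact ⟨b, c, Or.inl ⟨hb0, hb1⟩, Or.inr ⟨hc0, hc1⟩, hs⟩
  · obtain ⟨b, c, hb0, hb1, hc0, hc1, hs⟩ :=
      exists_split0 b2 b1 c1 c2 s (by omega) (by omega) hb hc
    exact ⟨b, c, Or.inr ⟨hb0, hb1⟩, Or.inl ⟨hc0, hc1⟩, hs⟩
  · obtain ⟨b, c, hb0, hb1, hc0, hc1, hs⟩ :=
      exists_split0 b2 b1 c2 c1 s (by omega) (by omega) hb hc
    exact ⟨b, c, Or.inr ⟨hb0, hb1⟩, Or.inr ⟨hc0, hc1⟩, hs⟩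

theorem pos_between (f : ℕ → ℝ)
    (hint : ∀ a b c, a ≤ b → b ≤ c → 0 < f a → 0 < f c → 0 < f b) (a c b : ℕ)
    (ha : 0 < f a) (hc : 0 < f c) (h : a ≤ b ∧ b ≤ c ∨ c ≤ b ∧ b ≤ a) : 0 < f b := by
  rcases h with h | h
  · exact hint a b c h.1 h.2 ha hc
  · exact hint c b a h.1 h.2 hc ha

theorem exists_pos_of_fiber (hp : ∀ i k, 0 ≤ p i k) (i j k : Fin 3) (hij : i ≠ j) (hki : k ≠ i)
    (hkj : k ≠ j) (x : ℕ)
    (hx : 0 < ∑ l ∈ (Finset.Nat.antidiagonalTuple 3 m).filter (fun l => l i = x),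
      ∏ a, p a (l a)) :
    ∃ b c, x + b + c = m ∧ 0 < p i x ∧ 0 < p j b ∧ 0 < p k c := by
  by_contra hcon
  push Not at hcon
  have : ∑ l ∈ (Finset.Nat.antidiagonalTuple 3 m).filter (fun l => l i = x), ∏ a, p a (l a) ≤ 0 := by
    apply Finset.sum_nonpos
    intro l hl
    simp only [mem_filter, Finset.Nat.mem_antidiagonalTuple] at hl
    obtain ⟨hs, hlx⟩ := hl
    rw [sum3 i j k hij hki hkj] at hs
    rw [prod3 i j k hij hki hkj]
    by_contra hneg
    push Not at hneg
    obtain ⟨h1, h2, h3⟩ := pos3 (hp _ _) (hp _ _) (hp _ _) hneg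
    rw [hlx] at h1 hs
    exact absurd (hcon (l j) (l k) hs h1 h2) (not_le.mpr h3)
  linarith

/-- **(INT)**: the support of the law of `l_i` is an interval. -/
theorem supp_interval (hp : ∀ i k, 0 ≤ p i k)
    (hint : ∀ i a b c, a ≤ b → b ≤ c → 0 < p i a → 0 < p i c → 0 < p i b)
    (i : Fin 3) (x y z : ℕ) (hxy : x ≤ y) (hyz : y ≤ z)
    (hx : 0 < ∑ l ∈ (Finset.Nat.antidiagonalTuple 3 m).filter (fun l => l i = x),
      ∏ a, p a (l a))
    (hz : 0 < ∑ l ∈ (Finset.Nat.antidiagonalTuple 3 m).filter (fun l => l i = z),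
      ∏ a, p a (l a)) :
    0 < ∑ l ∈ (Finset.Nat.antidiagonalTuple 3 m).filter (fun l => l i = y),
      ∏ a, p a (l a) := by
  obtain ⟨j, k, hij, hki, hkj⟩ := exists_two i
  obtain ⟨b1, c1, hs1, hi1, hj1, hk1⟩ := exists_pos_of_fiber p m hp i j k hij hki hkj x hx
  obtain ⟨b2, c2, hs2, hi2, hj2, hk2⟩ := exists_pos_of_fiber p m hp i j k hij hki hkj z hz
  obtain ⟨b, c, hb, hc, hs⟩ := exists_split b1 b2 c1 c2 (m - y) (by omega) (by omega)
  have hiy : 0 < p i y := hint i x y z hxy hyz hi1 hi2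
  have hjb : 0 < p j b := pos_between (p j) (hint j) b1 b2 b hj1 hj2 hb
  have hkc : 0 < p k c := pos_between (p k) (hint k) c1 c2 c hk1 hk2 hc
  have hmem : tup i j y b c ∈ (Finset.Nat.antidiagonalTuple 3 m).filter (fun l => l i = y) := by
    simp only [mem_filter, Finset.Nat.mem_antidiagonalTuple]
    refine ⟨?_, tup_i i j y b c⟩
    rw [sum3 i j k hij hki hkj, tup_i, tup_j i j hij, tup_k i j k hki hkj]
    omega
  have hpos : 0 < ∏ a, p a (tup i j y b c a) := by
    rw [prod3 i j k hij hki hkj, tup_i, tup_j i j hij, tup_k i j k hki hkj]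
    exact mul_pos (mul_pos hiy hjb) hkc
  refine lt_of_lt_of_le hpos
    (Finset.single_le_sum (f := fun l => ∏ a, p a (l a)) (fun l _ => ?_) hmem)
  exact Finset.prod_nonneg (fun a _ => hp a (l a))

end three

end Crest.Agent.Helper1.SW
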