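/-
Helper1 / S0453: two abstract finite-dimensional devices used by the switch-chain proof
(notes/s0453/PROOF.md, §1 'hence', (3.3), (4c,d)).

* `exists_minimiser` : for real symmetric matrices `G` (positive definite) and `A` there are
  `q` and `v ≠ 0` with `q * (c ⬝ᵥ G c) ≤ c ⬝ᵥ A c` for all `c` and `A v = q • G v`
  (the least generalised eigenvalue; compactness only, no spectral theorem).
* `cone_lemma` : if moreover `G ≥ 0`, `M ≥ 0` entrywise, `A = G * M` and `c ⬝ᵥ A c ≤ c ⬝ᵥ G c`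
  for all `c`, then `-(c ⬝ᵥ G c) ≤ c ⬝ᵥ A c` for all `c`.
-/
import Mathlib

set_option autoImplicit false
set_option linter.unusedSectionVars false

namespace Crest.Agent.Helper1.SW

open Matrix

variable {ι : Type*} [Fintype ι] [DecidableEq ι]

/-- The quadratic form `c ↦ cᵀ A c`. -/
def qf (A : Matrix ι ι ℝ) (c : ι → ℝ) : ℝ := c ⬝ᵥ (A *ᵥ c)

theorem qf_smul (A : Matrix ι ι ℝ) (t : ℝ) (c : ι → ℝ) : qf A (t • c) = t ^ 2 * qf A c := by
  unfold qf
  rw [Matrix.mulVec_smul, dotProduct_smul, smul_dotProduct]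
  simp only [smul_eq_mul]
  ring

theorem qf_zero (A : Matrix ι ι ℝ) : qf A 0 = 0 := by
  unfold qf
  simp

theorem bil_symm (A : Matrix ι ι ℝ) (hA : A.IsSymm) (x y : ι → ℝ) :
    x ⬝ᵥ (A *ᵥ y) = y ⬝ᵥ (A *ᵥ x) := by
  rw [Matrix.dotProduct_mulVec, ← Matrix.mulVec_transpose, hA.eq, dotProduct_comm]

theorem qf_add (A : Matrix ι ι ℝ) (hA : A.IsSymm) (x y : ι → ℝ) :
    qf A (x + y) = qf A x + 2 * (y ⬝ᵥ (A *ᵥ x)) + qf A y := by
  unfold qf
  rw [Matrix.mulVec_add, dotProduct_add, add_dotProduct, add_dotProduct, bil_symm A hA x y]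
  ring

theorem continuous_qf (A : Matrix ι ι ℝ) : Continuous (qf A) := by
  unfold qf
  simp only [dotProduct, Matrix.mulVec]
  fun_prop

/-- A positive semidefinite symmetric form vanishing at `v` kills `v`. -/
theorem mulVec_eq_zero_of_psd (B : Matrix ι ι ℝ) (hB : B.IsSymm)
    (hpsd : ∀ c : ι → ℝ, 0 ≤ qf B c) (v : ι → ℝ) (hv : qf B v = 0) : B *ᵥ v = 0 := by
  set h : ι → ℝ := B *ᵥ v with hh
  by_contra hne
  have hs : 0 < h ⬝ᵥ h := by
    have h0 : 0 ≤ h ⬝ᵥ h := by
      simp only [dotProduct]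
      exact Finset.sum_nonneg fun i _ => mul_self_nonneg (h i)
    rcases h0.lt_or_eq with h1 | h1
    · exact h1
    · exfalso
      apply hne
      funext i
      have : ∑ i, h i * h i = 0 := by simpa [dotProduct] using h1.symm
      have h2 := (Finset.sum_eq_zero_iff_of_nonneg (fun i _ => mul_self_nonneg (h i))).1 this i
        (Finset.mem_univ i)
      simpa using mul_self_eq_zero.1 h2
  set s : ℝ := h ⬝ᵥ h with hsdef
  set m : ℝ := qf B h with hm
  have hm0 : 0 ≤ m := hpsd h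
  have key := hpsd (v + (-(s / (m + 1))) • h)
  rw [qf_add B hB, qf_smul, hv] at key
  have e1 : ((-(s / (m + 1))) • h) ⬝ᵥ (B *ᵥ v) = -(s / (m + 1)) * s := by
    rw [smul_dotProduct, ← hh, smul_eq_mul]
  rw [e1] at key
  have hm1 : 0 < m + 1 := by linarith
  have : 0 + 2 * (-(s / (m + 1)) * s) + (-(s / (m + 1))) ^ 2 * m
      = - s ^ 2 * (m + 2) / (m + 1) ^ 2 := by
    field_simp
    ring
  rw [this] at key
  have hneg : - s ^ 2 * (m + 2) / (m + 1) ^ 2 < 0 := by
    apply div_neg_of_neg_of_pos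
    · nlinarith [sq_pos_of_pos hs]
    · positivity
  linarith

/-- **Minimiser device.** Least generalised eigenvalue of `A` with respect to a positive
definite `G`, with an eigenvector. -/
theorem exists_minimiser [Nonempty ι] (G A : Matrix ι ι ℝ) (hG : G.IsSymm) (hA : A.IsSymm)
    (hpos : ∀ c : ι → ℝ, c ≠ 0 → 0 < qf G c) :
    ∃ q : ℝ, ∃ v : ι → ℝ, v ≠ 0 ∧ (∀ c : ι → ℝ, q * qf G c ≤ qf A c) ∧
      A *ᵥ v = q • (G *ᵥ v) := by
  -- minimise the Rayleigh quotient on the unit sphere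
  have hcomp : IsCompact (Metric.sphere (0 : ι → ℝ) 1) := isCompact_sphere 0 1
  have hne : (Metric.sphere (0 : ι → ℝ) 1).Nonempty :=
    (NormedSpace.sphere_nonempty (E := ι → ℝ)).2 zero_le_one
  have hcont : ContinuousOn (fun c : ι → ℝ => qf A c / qf G c) (Metric.sphere (0 : ι → ℝ) 1) := by
    apply ContinuousOn.div (continuous_qf A).continuousOn (continuous_qf G).continuousOn
    intro c hc
    have : c ≠ 0 := by
      intro h0
      rw [h0] at hc
      simp at hc
    exact (hpos c this).ne'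
  obtain ⟨v, hvS, hvmin⟩ := hcomp.exists_isMinOn hne hcont
  have hv0 : v ≠ 0 := by
    intro h0
    rw [h0] at hvS
    simp at hvS
  set q : ℝ := qf A v / qf G v with hq
  have hGv : 0 < qf G v := hpos v hv0
  have hall : ∀ c : ι → ℝ, q * qf G c ≤ qf A c := by
    intro c
    by_cases hc : c = 0
    · subst hc
      simp [qf_zero]
    · have hnorm : 0 < ‖c‖ := norm_pos_iff.2 hc
      have hmem : (‖c‖⁻¹ • c) ∈ Metric.sphere (0 : ι → ℝ) 1 := by
        simp [norm_smul, hnorm.ne']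
      have h1 : qf A v / qf G v ≤ qf A (‖c‖⁻¹ • c) / qf G (‖c‖⁻¹ • c) := hvmin hmem
      rw [qf_smul, qf_smul] at h1
      have hGc : 0 < qf G c := hpos c hc
      have hpow : 0 < (‖c‖⁻¹) ^ 2 := by positivity
      have h2 : (‖c‖⁻¹) ^ 2 * qf A c / ((‖c‖⁻¹) ^ 2 * qf G c) = qf A c / qf G c := by
        field_simp
      rw [h2] at h1
      have h3 : q ≤ qf A c / qf G c := h1
      rw [le_div_iff₀ hGc] at h3
      exact h3
  refine ⟨q, v, hv0, hall, ?_⟩
  -- B = A - q G is PSD and vanishes at v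
  set B : Matrix ι ι ℝ := A - q • G with hB
  have hBsymm : B.IsSymm := by
    rw [hB]
    exact hA.sub (hG.smul q)
  have hqfB : ∀ c : ι → ℝ, qf B c = qf A c - q * qf G c := by
    intro c
    unfold qf
    rw [hB, Matrix.sub_mulVec, dotProduct_sub, Matrix.smul_mulVec, dotProduct_smul, smul_eq_mul]
  have hpsd : ∀ c : ι → ℝ, 0 ≤ qf B c := by
    intro c
    rw [hqfB]
    linarith [hall c]
  have hBv : qf B v = 0 := by
    rw [hqfB, hq]
    field_simp
    ring
  have h0 := mulVec_eq_zero_of_psd B hBsymm hpsd v hBv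
  rw [hB, Matrix.sub_mulVec, Matrix.smul_mulVec, sub_eq_zero] at h0
  exact h0

/-- **Cone lemma.** `G` positive definite with nonnegative entries, `M` with nonnegative entries,
`A = G * M` symmetric and `A ≤ G` as quadratic forms. Then `-G ≤ A` as quadratic forms. -/
theorem cone_lemma (G A M : Matrix ι ι ℝ) (hG : G.IsSymm) (hA : A.IsSymm)
    (hpos : ∀ c : ι → ℝ, c ≠ 0 → 0 < qf G c)
    (hG0 : ∀ i j, 0 ≤ G i j) (hM0 : ∀ i j, 0 ≤ M i j) (hAGM : A = G * M)
    (hgram : ∀ c : ι → ℝ, qf A c ≤ qf G c) :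
    ∀ c : ι → ℝ, -(qf G c) ≤ qf A c := by
  intro c
  have hGnn : ∀ x : ι → ℝ, 0 ≤ qf G x := by
    intro x
    by_cases hx : x = 0
    · subst hx
      simp [qf_zero]
    · exact (hpos x hx).le
  by_cases hι : Nonempty ι
  swap
  · have : IsEmpty ι := not_nonempty_iff.1 hι
    simp [qf, dotProduct]
  obtain ⟨q, v, hv0, hall, hev⟩ := exists_minimiser G A hG hA hpos
  by_cases hq : -1 ≤ q
  · have h1 := hall c
    have h2 := hGnn c
    nlinarith
  exfalso
  have hq : q < -1 := lt_of_not_ge hq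
  -- `M v = q v`
  have hMv : M *ᵥ v = q • v := by
    have h1 : G *ᵥ (M *ᵥ v - q • v) = 0 := by
      rw [Matrix.mulVec_sub, Matrix.mulVec_smul, Matrix.mulVec_mulVec, ← hAGM, hev, sub_self]
    by_contra hne
    have h2 : M *ᵥ v - q • v ≠ 0 := sub_ne_zero.2 hne
    have h3 := hpos _ h2
    unfold qf at h3
    rw [h1] at h3
    simp at h3
  set a : ι → ℝ := fun i => |v i| with ha
  have ha0 : a ≠ 0 := by
    intro h0
    apply hv0
    funext i
    have := congrFun h0 i
    simpa [ha] using this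
  have hann : ∀ i, 0 ≤ a i := fun i => abs_nonneg _
  -- entrywise: `M a ≥ (-q) a`
  have hw : ∀ i, 0 ≤ (M *ᵥ a - (-q) • a) i := by
    intro i
    have h1 : (M *ᵥ v) i = q * v i := by
      rw [hMv]
      simp
    have h2 : |∑ j, M i j * v j| ≤ ∑ j, M i j * |v j| := by
      calc |∑ j, M i j * v j| ≤ ∑ j, |M i j * v j| := Finset.abs_sum_le_sum_abs _ _
        _ = ∑ j, M i j * |v j| := by
          apply Finset.sum_congr rfl
          intro j _
          rw [abs_mul, abs_of_nonneg (hM0 i j)]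
    have h3 : (M *ᵥ v) i = ∑ j, M i j * v j := by
      simp [Matrix.mulVec, dotProduct]
    have h4 : (M *ᵥ a) i = ∑ j, M i j * |v j| := by
      simp [Matrix.mulVec, dotProduct, ha]
    have h5 : |q * v i| = (-q) * |v i| := by
      rw [abs_mul, abs_of_neg (by linarith : q < 0)]
    simp only [Pi.sub_apply, Pi.smul_apply, smul_eq_mul]
    rw [h4, ← h5, ← h1, h3]
    linarith
  set w : ι → ℝ := M *ᵥ a - (-q) • a with hwdef
  have h6 : 0 ≤ a ⬝ᵥ (G *ᵥ w) := by
    simp only [dotProduct, Matrix.mulVec]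
    apply Finset.sum_nonneg
    intro i _
    apply mul_nonneg (hann i)
    apply Finset.sum_nonneg
    intro j _
    exact mul_nonneg (hG0 i j) (hw j)
  have h7 : a ⬝ᵥ (G *ᵥ w) = qf A a - (-q) * qf G a := by
    rw [hwdef, Matrix.mulVec_sub, Matrix.mulVec_smul, Matrix.mulVec_mulVec, ← hAGM, dotProduct_sub,
      dotProduct_smul, smul_eq_mul]
    rfl
  have h8 := hgram a
  have h9 := hpos a ha0
  rw [h7] at h6
  nlinarith

end Crest.Agent.Helper1.SW
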