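/-
Helper1 / S0453, WP-D2 (insurance, cone route): the abstract one-dimensional lemma.

A finite weighted set `(S, w)`, `w ≥ 0`, with integer statistics `L i` such that
* (MON)  `P(L j > u | L i = x)` is nonincreasing in `x` for `i ≠ j` (cross-multiplied), and
* (INT)  the support of the law of each `L i` is an interval.
Then `V(∑ i, g i ∘ L i) ≤ 2 * ∑ i, V(g i ∘ L i)` for all `g`, where `V f = Z·E[f²] − E[f]²`.

Proof: expand every `g i ∘ L i` in the step functions `[t < L i]`; the Gram matrix of the step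
functions splits as `G − A` (`G` = same statistic, `A` = minus different statistics), and
`A = G * M` with `M ≥ 0` by (MON) and the tower property; conclude with `cone_lemma`.
-/
import Mathlib
import Crest.Agent.Helper1.SW.Minimiser

set_option autoImplicit false
set_option linter.unusedSectionVars false

namespace Crest.Agent.Helper1.SW

open Finset Matrix

noncomputable section

section covariance

variable {Ω : Type*} (S : Finset Ω) (w : Ω → ℝ)

/-- unnormalised covariance `Z * E[f h] - E[f] * E[h]` -/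
def cov (f h : Ω → ℝ) : ℝ :=
  (∑ l ∈ S, w l) * (∑ l ∈ S, w l * (f l * h l)) - (∑ l ∈ S, w l * f l) * (∑ l ∈ S, w l * h l)

theorem two_cov (f h : Ω → ℝ) :
    2 * cov S w f h = ∑ l ∈ S, ∑ l' ∈ S, w l * w l' * ((f l - f l') * (h l - h l')) := by
  have e : ∀ l ∈ S, ∑ l' ∈ S, w l * w l' * ((f l - f l') * (h l - h l'))
      = (∑ l' ∈ S, w l') * (w l * (f l * h l)) - (w l * f l) * (∑ l' ∈ S, w l' * h l')
        - (w l * h l) * (∑ l' ∈ S, w l' * f l') + w l * (∑ l' ∈ S, w l' * (f l' * h l')) := by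
    intro l _
    rw [Finset.sum_mul, Finset.mul_sum, Finset.mul_sum, Finset.mul_sum,
      ← Finset.sum_sub_distrib, ← Finset.sum_sub_distrib, ← Finset.sum_add_distrib]
    refine Finset.sum_congr rfl (fun l' _ => ?_)
    ring
  rw [Finset.sum_congr rfl e, Finset.sum_add_distrib, Finset.sum_sub_distrib,
    Finset.sum_sub_distrib, ← Finset.mul_sum, ← Finset.sum_mul, ← Finset.sum_mul,
    ← Finset.sum_mul]
  unfold cov
  ring

theorem cov_symm (f h : Ω → ℝ) : cov S w f h = cov S w h f := by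
  unfold cov
  rw [Finset.sum_congr rfl (fun l _ => by rw [mul_comm (f l) (h l)] :
    ∀ l ∈ S, w l * (f l * h l) = w l * (h l * f l))]
  ring

theorem cov_add_right (f h1 h2 : Ω → ℝ) :
    cov S w f (fun l => h1 l + h2 l) = cov S w f h1 + cov S w f h2 := by
  unfold cov
  simp only [mul_add, Finset.sum_add_distrib]
  ring

theorem cov_smul_right (f h : Ω → ℝ) (c : ℝ) :
    cov S w f (fun l => c * h l) = c * cov S w f h := by
  unfold cov
  have e1 : ∀ l ∈ S, w l * (f l * (c * h l)) = c * (w l * (f l * h l)) := fun l _ => by ring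
  have e2 : ∀ l ∈ S, w l * (c * h l) = c * (w l * h l) := fun l _ => by ring
  rw [Finset.sum_congr rfl e1, Finset.sum_congr rfl e2, ← Finset.mul_sum, ← Finset.mul_sum]
  ring

theorem cov_zero_right (f : Ω → ℝ) : cov S w f (fun _ => 0) = 0 := by
  unfold cov
  simp

theorem cov_sum_right {ι : Type*} (T : Finset ι) (f : Ω → ℝ) (h : ι → Ω → ℝ) :
    cov S w f (fun l => ∑ a ∈ T, h a l) = ∑ a ∈ T, cov S w f (h a) := by
  classical
  induction T using Finset.induction_on with
  | empty => simp [cov_zero_right]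
  | insert a T ha ih =>
    simp only [Finset.sum_insert ha]
    rw [cov_add_right, ih]

theorem cov_add_left (f1 f2 h : Ω → ℝ) :
    cov S w (fun l => f1 l + f2 l) h = cov S w f1 h + cov S w f2 h := by
  rw [cov_symm, cov_add_right, cov_symm S w h f1, cov_symm S w h f2]

theorem cov_smul_left (f h : Ω → ℝ) (c : ℝ) :
    cov S w (fun l => c * f l) h = c * cov S w f h := by
  rw [cov_symm, cov_smul_right, cov_symm]

theorem cov_sum_left {ι : Type*} (T : Finset ι) (f : ι → Ω → ℝ) (h : Ω → ℝ) :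
    cov S w (fun l => ∑ a ∈ T, f a l) h = ∑ a ∈ T, cov S w (f a) h := by
  rw [cov_symm, cov_sum_right]
  exact Finset.sum_congr rfl (fun a _ => cov_symm S w h (f a))

theorem cov_self_nonneg (hw : ∀ l ∈ S, 0 ≤ w l) (f : Ω → ℝ) : 0 ≤ cov S w f f := by
  have h := two_cov S w f f
  have : 0 ≤ ∑ l ∈ S, ∑ l' ∈ S, w l * w l' * ((f l - f l') * (f l - f l')) :=
    Finset.sum_nonneg (fun l hl => Finset.sum_nonneg (fun l' hl' =>
      mul_nonneg (mul_nonneg (hw l hl) (hw l' hl')) (mul_self_nonneg _)))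
  linarith

theorem cov_self_pos (hw : ∀ l ∈ S, 0 ≤ w l) (f : Ω → ℝ) (l l' : Ω) (hl : l ∈ S) (hl' : l' ∈ S)
    (h1 : 0 < w l) (h2 : 0 < w l') (hne : f l ≠ f l') : 0 < cov S w f f := by
  have h := two_cov S w f f
  have hterm : 0 < w l * w l' * ((f l - f l') * (f l - f l')) :=
    mul_pos (mul_pos h1 h2) (mul_self_pos.mpr (sub_ne_zero.mpr hne))
  have hle1 : ∑ l'' ∈ S, w l * w l'' * ((f l - f l'') * (f l - f l''))
      ≤ ∑ l₁ ∈ S, ∑ l'' ∈ S, w l₁ * w l'' * ((f l₁ - f l'') * (f l₁ - f l'')) :=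
    Finset.single_le_sum
      (f := fun l₁ => ∑ l'' ∈ S, w l₁ * w l'' * ((f l₁ - f l'') * (f l₁ - f l'')))
      (fun l₁ hl₁ => Finset.sum_nonneg (fun l'' hl'' =>
        mul_nonneg (mul_nonneg (hw l₁ hl₁) (hw l'' hl'')) (mul_self_nonneg _))) hl
  have hle2 : w l * w l' * ((f l - f l') * (f l - f l'))
      ≤ ∑ l'' ∈ S, w l * w l'' * ((f l - f l'') * (f l - f l'')) :=
    Finset.single_le_sum (f := fun l'' => w l * w l'' * ((f l - f l'') * (f l - f l'')))
      (fun l'' hl'' => mul_nonneg (mul_nonneg (hw l hl) (hw l'' hl'')) (mul_self_nonneg _)) hl'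
  linarith

theorem cov_congr_right (f h h' : Ω → ℝ)
    (hh : ∀ l ∈ S, ∀ l' ∈ S, w l ≠ 0 → w l' ≠ 0 → h l - h l' = h' l - h' l') :
    cov S w f h = cov S w f h' := by
  have e1 := two_cov S w f h
  have e2 := two_cov S w f h'
  have : ∑ l ∈ S, ∑ l' ∈ S, w l * w l' * ((f l - f l') * (h l - h l'))
      = ∑ l ∈ S, ∑ l' ∈ S, w l * w l' * ((f l - f l') * (h' l - h' l')) := by
    refine Finset.sum_congr rfl (fun l hl => Finset.sum_congr rfl (fun l' hl' => ?_))
    by_cases h1 : w l = 0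
    · rw [h1]; ring
    · by_cases h2 : w l' = 0
      · rw [h2]; ring
      · rw [hh l hl l' hl' h1 h2]
  linarith

theorem cov_congr (f f' h h' : Ω → ℝ)
    (hf : ∀ l ∈ S, ∀ l' ∈ S, w l ≠ 0 → w l' ≠ 0 → f l - f l' = f' l - f' l')
    (hh : ∀ l ∈ S, ∀ l' ∈ S, w l ≠ 0 → w l' ≠ 0 → h l - h l' = h' l - h' l') :
    cov S w f h = cov S w f' h' := by
  rw [cov_congr_right S w f h h' hh, cov_symm S w f h', cov_congr_right S w h' f f' hf,
    cov_symm]

end covariance

section stats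

variable {Ω : Type*} (S : Finset Ω) (w : Ω → ℝ) {κ : Type*} [Fintype κ] [DecidableEq κ]
  (L : κ → Ω → ℕ) (N : ℕ)

/-- weight of `L i = x` -/
def mg (i : κ) (x : ℕ) : ℝ := ∑ l ∈ S.filter (fun l => L i l = x), w l

/-- weight of `L i = x` and `u < L j` -/
def nu (i j : κ) (u x : ℕ) : ℝ := ∑ l ∈ S.filter (fun l => L i l = x ∧ u < L j l), w l

theorem mg_nonneg (hw : ∀ l ∈ S, 0 ≤ w l) (i : κ) (x : ℕ) : 0 ≤ mg S w L i x :=
  Finset.sum_nonneg (fun l hl => hw l (Finset.mem_filter.1 hl).1)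

theorem nu_nonneg (hw : ∀ l ∈ S, 0 ≤ w l) (i j : κ) (u x : ℕ) : 0 ≤ nu S w L i j u x :=
  Finset.sum_nonneg (fun l hl => hw l (Finset.mem_filter.1 hl).1)

theorem nu_le_mg (hw : ∀ l ∈ S, 0 ≤ w l) (i j : κ) (u x : ℕ) :
    nu S w L i j u x ≤ mg S w L i x := by
  unfold nu mg
  apply Finset.sum_le_sum_of_subset_of_nonneg
  · intro l hl
    simp only [Finset.mem_filter] at hl ⊢
    exact ⟨hl.1, hl.2.1⟩
  · intro l hl _
    exact hw l (Finset.mem_filter.1 hl).1

theorem mg_pos_of_mem (hw : ∀ l ∈ S, 0 ≤ w l) (i : κ) (l : Ω) (hl : l ∈ S) (hpos : 0 < w l) :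
    0 < mg S w L i (L i l) := by
  unfold mg
  exact lt_of_lt_of_le hpos (Finset.single_le_sum (f := w)
    (fun l' hl' => hw l' (Finset.mem_filter.1 hl').1) (Finset.mem_filter.2 ⟨hl, rfl⟩))

theorem exists_of_mg_pos (i : κ) (x : ℕ) (h : 0 < mg S w L i x) :
    ∃ l ∈ S, L i l = x ∧ 0 < w l := by
  by_contra hcon
  push Not at hcon
  have : mg S w L i x ≤ 0 :=
    Finset.sum_nonpos (fun l hl => hcon l (Finset.mem_filter.1 hl).1 (Finset.mem_filter.1 hl).2)
  linarith

/-- tower property: `E[h(L i) · 1(u < L j)] = E[h(L i) · P(u < L j | L i)]` -/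
theorem tower (hw : ∀ l ∈ S, 0 ≤ w l) (hN : ∀ i, ∀ l ∈ S, L i l ≤ N) (i j : κ) (u : ℕ)
    (h : ℕ → ℝ) :
    ∑ l ∈ S, w l * (h (L i l) * (if u < L j l then 1 else 0))
      = ∑ l ∈ S, w l * (h (L i l) * (nu S w L i j u (L i l) / mg S w L i (L i l))) := by
  have hmaps : ∀ l ∈ S, L i l ∈ range (N + 1) :=
    fun l hl => Finset.mem_range.2 (Nat.lt_succ_of_le (hN i l hl))
  rw [← Finset.sum_fiberwise_of_maps_to hmaps, ← Finset.sum_fiberwise_of_maps_to hmaps]
  refine Finset.sum_congr rfl (fun x _ => ?_)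
  have e0 : nu S w L i j u x
      = ∑ l ∈ S.filter (fun l => L i l = x), (if u < L j l then w l else 0) := by
    unfold nu
    rw [← Finset.filter_filter, Finset.sum_filter]
  have e1 : ∑ l ∈ S.filter (fun l => L i l = x),
      w l * (h (L i l) * (if u < L j l then (1 : ℝ) else 0)) = h x * nu S w L i j u x := by
    rw [e0, Finset.mul_sum]
    refine Finset.sum_congr rfl (fun l hl => ?_)
    rw [(Finset.mem_filter.1 hl).2]
    split_ifs <;> ring
  have e2 : ∑ l ∈ S.filter (fun l => L i l = x),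
      w l * (h (L i l) * (nu S w L i j u (L i l) / mg S w L i (L i l)))
        = h x * nu S w L i j u x := by
    have hc : ∀ l ∈ S.filter (fun l => L i l = x),
        w l * (h (L i l) * (nu S w L i j u (L i l) / mg S w L i (L i l)))
          = w l * (h x * (nu S w L i j u x / mg S w L i x)) := by
      intro l hl
      rw [(Finset.mem_filter.1 hl).2]
    rw [Finset.sum_congr rfl hc, ← Finset.sum_mul]
    change mg S w L i x * _ = _
    by_cases hz : mg S w L i x = 0
    · have h1 := nu_le_mg S w L hw i j u x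
      rw [hz] at h1
      have h2 : nu S w L i j u x = 0 := le_antisymm h1 (nu_nonneg S w L hw i j u x)
      rw [hz, h2]; ring
    · field_simp
  rw [e1, e2]

/-- step function `[t < L i]` -/
def Hs (α : κ × Fin N) (l : Ω) : ℝ := if (α.2 : ℕ) < L α.1 l then 1 else 0

/-- nondegenerate step: both `t` and `t + 1` carry weight -/
def Pd (i : κ) (t : ℕ) : Prop := 0 < mg S w L i t ∧ 0 < mg S w L i (t + 1)

instance instDecPd (i : κ) (t : ℕ) : Decidable (Pd S w L i t) := Classical.propDecidable _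

/-- Gram matrix of the step functions -/
def Kmat : Matrix (κ × Fin N) (κ × Fin N) ℝ := fun α β => cov S w (Hs L N α) (Hs L N β)

def Gmat : Matrix (κ × Fin N) (κ × Fin N) ℝ := fun α β =>
  (if α.1 = β.1 then Kmat S w L N α β else 0)
    + (if α = β then (if Pd S w L α.1 α.2 then 0 else 1) else 0)

def Amat : Matrix (κ × Fin N) (κ × Fin N) ℝ := fun α β =>
  if α.1 = β.1 then 0 else - Kmat S w L N α β

/-- `P(β.2 < L β.1 | L i = x)` -/
def Rr (β : κ × Fin N) (i : κ) (x : ℕ) : ℝ := nu S w L i β.1 β.2 x / mg S w L i x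

def Mmat : Matrix (κ × Fin N) (κ × Fin N) ℝ := fun γ β =>
  if γ.1 ≠ β.1 ∧ Pd S w L γ.1 γ.2 then
    Rr S w L N β γ.1 (γ.2 : ℕ) - Rr S w L N β γ.1 ((γ.2 : ℕ) + 1) else 0

def Fc (c : κ × Fin N → ℝ) (l : Ω) : ℝ := ∑ α, c α * Hs L N α l

def restr (i : κ) (c : κ × Fin N → ℝ) : κ × Fin N → ℝ := fun α => if α.1 = i then c α else 0

theorem Kmat_symm (α β : κ × Fin N) : Kmat S w L N α β = Kmat S w L N β α :=
  cov_symm _ _ _ _

theorem sum_K (c d : κ × Fin N → ℝ) :
    ∑ α, ∑ β, c α * Kmat S w L N α β * d β = cov S w (Fc L N c) (Fc L N d) := by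
  have e : ∀ c : κ × Fin N → ℝ, Fc L N c = fun l => ∑ α, c α * Hs L N α l := fun c => rfl
  rw [e c, e d, cov_sum_left]
  refine Finset.sum_congr rfl (fun α _ => ?_)
  rw [cov_sum_right]
  refine Finset.sum_congr rfl (fun β _ => ?_)
  rw [cov_smul_left, cov_smul_right]
  unfold Kmat
  ring

theorem qf_eq (B : Matrix (κ × Fin N) (κ × Fin N) ℝ) (c : κ × Fin N → ℝ) :
    qf B c = ∑ α, ∑ β, c α * B α β * c β := by
  unfold qf
  simp only [dotProduct, mulVec, Finset.mul_sum, mul_assoc]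

theorem sum_block (c : κ × Fin N → ℝ) :
    ∑ i, cov S w (Fc L N (restr N i c)) (Fc L N (restr N i c))
      = ∑ α, ∑ β, (if α.1 = β.1 then c α * Kmat S w L N α β * c β else 0) := by
  have e : ∀ i, cov S w (Fc L N (restr N i c)) (Fc L N (restr N i c))
      = ∑ α, ∑ β, restr N i c α * Kmat S w L N α β * restr N i c β :=
    fun i => (sum_K S w L N _ _).symm
  rw [Finset.sum_congr rfl (fun i _ => e i)]
  refine Finset.sum_comm.trans (Finset.sum_congr rfl (fun α _ => ?_))
  refine Finset.sum_comm.trans (Finset.sum_congr rfl (fun β _ => ?_))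
  unfold restr
  rw [Finset.sum_eq_single α.1]
  · by_cases h : α.1 = β.1
    · rw [if_pos h, if_pos rfl, if_pos h.symm]
    · rw [if_neg h, if_pos rfl, if_neg (Ne.symm h)]; ring
  · intro i _ hi
    rw [if_neg (Ne.symm hi)]; ring
  · intro h; exact absurd (Finset.mem_univ _) h

theorem qf_G (c : κ × Fin N → ℝ) :
    qf (Gmat S w L N) c = ∑ i, cov S w (Fc L N (restr N i c)) (Fc L N (restr N i c))
      + ∑ α : κ × Fin N, (if Pd S w L α.1 α.2 then 0 else c α ^ 2) := by
  rw [qf_eq, sum_block S w L N c, ← Finset.sum_add_distrib]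
  refine Finset.sum_congr rfl (fun α _ => ?_)
  have e : ∀ β, c α * Gmat S w L N α β * c β
      = (if α.1 = β.1 then c α * Kmat S w L N α β * c β else 0)
        + (if α = β then (if Pd S w L α.1 α.2 then 0 else c α * c β) else 0) := by
    intro β
    unfold Gmat
    split_ifs <;> ring
  rw [Finset.sum_congr rfl (fun β _ => e β), Finset.sum_add_distrib, Finset.sum_ite_eq]
  simp only [Finset.mem_univ, if_true]
  congr 1
  split_ifs <;> ring

theorem qf_A (c : κ × Fin N → ℝ) :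
    qf (Amat S w L N) c = ∑ i, cov S w (Fc L N (restr N i c)) (Fc L N (restr N i c))
      - cov S w (Fc L N c) (Fc L N c) := by
  rw [qf_eq, sum_block S w L N c, ← sum_K S w L N c c, ← Finset.sum_sub_distrib]
  refine Finset.sum_congr rfl (fun α _ => ?_)
  rw [← Finset.sum_sub_distrib]
  refine Finset.sum_congr rfl (fun β _ => ?_)
  unfold Amat
  split_ifs <;> ring

theorem Gmat_symm : (Gmat S w L N).IsSymm := by
  apply Matrix.IsSymm.ext
  intro α β
  unfold Gmat
  rw [Kmat_symm S w L N β α]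
  by_cases h : α = β
  · subst h; rfl
  · by_cases h1 : α.1 = β.1
    · rw [if_pos h1, if_pos h1.symm, if_neg h, if_neg (Ne.symm h)]
    · rw [if_neg h1, if_neg (Ne.symm h1), if_neg h, if_neg (Ne.symm h)]

theorem Amat_symm : (Amat S w L N).IsSymm := by
  apply Matrix.IsSymm.ext
  intro α β
  unfold Amat
  rw [Kmat_symm S w L N β α]
  by_cases h1 : α.1 = β.1
  · rw [if_pos h1, if_pos h1.symm]
  · rw [if_neg h1, if_neg (Ne.symm h1)]

theorem Hs_mono (α : κ × Fin N) (l l' : Ω) (h : L α.1 l ≤ L α.1 l') :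
    Hs L N α l ≤ Hs L N α l' := by
  unfold Hs
  split_ifs with h1 h2 h2
  · exact le_refl _
  · omega
  · exact zero_le_one
  · exact le_refl _

theorem K_nonneg (hw : ∀ l ∈ S, 0 ≤ w l) (α β : κ × Fin N) (h : α.1 = β.1) :
    0 ≤ Kmat S w L N α β := by
  have e := two_cov S w (Hs L N α) (Hs L N β)
  have : 0 ≤ ∑ l ∈ S, ∑ l' ∈ S,
      w l * w l' * ((Hs L N α l - Hs L N α l') * (Hs L N β l - Hs L N β l')) := by
    refine Finset.sum_nonneg (fun l hl => Finset.sum_nonneg (fun l' hl' =>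
      mul_nonneg (mul_nonneg (hw l hl) (hw l' hl')) ?_))
    rcases le_total (L α.1 l) (L α.1 l') with h1 | h1
    · have a1 := Hs_mono L N α l l' h1
      have a2 := Hs_mono L N β l l' (by rw [← h]; exact h1)
      exact mul_nonneg_of_nonpos_of_nonpos (by linarith) (by linarith)
    · have a1 := Hs_mono L N α l' l h1
      have a2 := Hs_mono L N β l' l (by rw [← h]; exact h1)
      exact mul_nonneg (by linarith) (by linarith)
  unfold Kmat
  linarith

theorem Gmat_nonneg (hw : ∀ l ∈ S, 0 ≤ w l) (α β : κ × Fin N) : 0 ≤ Gmat S w L N α β := by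
  unfold Gmat
  apply add_nonneg
  · split_ifs with h
    · exact K_nonneg S w L N hw α β h
    · exact le_refl _
  · split_ifs <;> norm_num

theorem Mmat_nonneg
    (hmon : ∀ i j, i ≠ j → ∀ u x,
      nu S w L i j u (x + 1) * mg S w L i x ≤ nu S w L i j u x * mg S w L i (x + 1))
    (γ β : κ × Fin N) : 0 ≤ Mmat S w L N γ β := by
  unfold Mmat
  split_ifs with h
  · obtain ⟨hne, hP⟩ := h
    unfold Rr
    rw [sub_nonneg, div_le_div_iff₀ hP.2 hP.1]
    exact hmon γ.1 β.1 hne β.2 γ.2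
  · exact le_refl _

theorem Gmat_posdef (hw : ∀ l ∈ S, 0 ≤ w l) (c : κ × Fin N → ℝ) (hc : c ≠ 0) :
    0 < qf (Gmat S w L N) c := by
  rw [qf_G]
  obtain ⟨α, hα⟩ := Function.ne_iff.mp hc
  have hα' : c α ≠ 0 := hα
  have h1 : 0 ≤ ∑ i, cov S w (Fc L N (restr N i c)) (Fc L N (restr N i c)) :=
    Finset.sum_nonneg (fun i _ => cov_self_nonneg S w hw _)
  have h2nn : ∀ β ∈ (Finset.univ : Finset (κ × Fin N)),
      0 ≤ (if Pd S w L β.1 β.2 then 0 else c β ^ 2) := by
    intro β _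
    split_ifs
    · exact le_refl _
    · exact sq_nonneg _
  have h2 : 0 ≤ ∑ β : κ × Fin N, (if Pd S w L β.1 β.2 then 0 else c β ^ 2) :=
    Finset.sum_nonneg h2nn
  by_cases hP : Pd S w L α.1 α.2
  · obtain ⟨l, hl, hLl, hwl⟩ := exists_of_mg_pos S w L α.1 ((α.2 : ℕ) + 1) hP.2
    obtain ⟨l', hl', hLl', hwl'⟩ := exists_of_mg_pos S w L α.1 (α.2 : ℕ) hP.1
    have hdiff : Fc L N (restr N α.1 c) l - Fc L N (restr N α.1 c) l' = c α := by
      unfold Fc
      rw [← Finset.sum_sub_distrib, Finset.sum_eq_single α]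
      · unfold restr Hs
        rw [if_pos rfl, hLl, hLl', if_pos (Nat.lt_succ_self _), if_neg (lt_irrefl _)]
        ring
      · intro γ _ hγ
        unfold restr
        by_cases h1 : γ.1 = α.1
        · rw [if_pos h1]
          have h2 : (γ.2 : ℕ) ≠ α.2 := by
            intro h
            apply hγ
            exact Prod.ext h1 (Fin.ext h)
          unfold Hs
          rw [h1, hLl, hLl']
          by_cases h3 : (γ.2 : ℕ) < α.2
          · rw [if_pos h3, if_pos (show (γ.2 : ℕ) < (α.2 : ℕ) + 1 by omega)]; ring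
          · rw [if_neg h3, if_neg (show ¬ ((γ.2 : ℕ) < (α.2 : ℕ) + 1) by omega)]; ring
        · rw [if_neg h1]; ring
      · intro h; exact absurd (Finset.mem_univ _) h
    have hpos : 0 < cov S w (Fc L N (restr N α.1 c)) (Fc L N (restr N α.1 c)) := by
      apply cov_self_pos S w hw _ l l' hl hl' hwl hwl'
      intro h
      rw [h, sub_self] at hdiff
      exact hα' hdiff.symm
    have hle := Finset.single_le_sum
      (f := fun i => cov S w (Fc L N (restr N i c)) (Fc L N (restr N i c)))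
      (fun i _ => cov_self_nonneg S w hw _) (Finset.mem_univ α.1)
    linarith
  · have hle := Finset.single_le_sum h2nn (Finset.mem_univ α)
    rw [if_neg hP] at hle
    have : 0 < c α ^ 2 := lt_of_le_of_ne (sq_nonneg _) (Ne.symm (pow_ne_zero 2 hα'))
    linarith

theorem gram (hw : ∀ l ∈ S, 0 ≤ w l) (c : κ × Fin N → ℝ) :
    qf (Amat S w L N) c ≤ qf (Gmat S w L N) c := by
  rw [qf_A, qf_G]
  have h1 := cov_self_nonneg S w hw (Fc L N c)
  have h2 : 0 ≤ ∑ β : κ × Fin N, (if Pd S w L β.1 β.2 then 0 else c β ^ 2) := by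
    refine Finset.sum_nonneg (fun β _ => ?_)
    split_ifs
    · exact le_refl _
    · exact sq_nonneg _
  linarith

/-- the telescoped step expansion of `φ ∘ L i` -/
def Tel (i : κ) (φ : ℕ → ℝ) (x : ℕ) : ℝ :=
  ∑ γ : κ × Fin N, (if γ.1 = i ∧ Pd S w L γ.1 γ.2 then φ ((γ.2 : ℕ) + 1) - φ (γ.2 : ℕ) else 0)
    * (if (γ.2 : ℕ) < x then 1 else 0)

theorem Tel_eq (i : κ) (φ : ℕ → ℝ) (x : ℕ) (hx : x ≤ N) :
    Tel S w L N i φ x = ∑ t ∈ range x, (if Pd S w L i t then φ (t + 1) - φ t else 0) := by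
  unfold Tel
  rw [Fintype.sum_prod_type, Finset.sum_eq_single i]
  · refine (Fin.sum_univ_eq_sum_range (fun t => (if i = i ∧ Pd S w L i t then φ (t + 1) - φ t
      else 0) * (if t < x then (1 : ℝ) else 0)) N).trans ?_
    have hsub : range x = (range N).filter (fun t => t < x) := by
      ext t
      simp only [mem_filter, mem_range]
      omega
    rw [hsub, Finset.sum_filter]
    refine Finset.sum_congr rfl (fun t _ => ?_)
    by_cases hP : Pd S w L i t <;> by_cases h : t < x <;> simp [hP, h]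
  · intro a _ ha
    apply Finset.sum_eq_zero
    intro t _
    simp [ha]
  · intro h; exact absurd (Finset.mem_univ _) h

theorem tel_aux
    (hintv : ∀ i x y z, x ≤ y → y ≤ z → 0 < mg S w L i x → 0 < mg S w L i z →
      0 < mg S w L i y)
    (i : κ) (φ : ℕ → ℝ) (x : ℕ) (hx : 0 < mg S w L i x) :
    ∀ y, x ≤ y → 0 < mg S w L i y →
      (∑ t ∈ range y, (if Pd S w L i t then φ (t + 1) - φ t else 0))
        - (∑ t ∈ range x, (if Pd S w L i t then φ (t + 1) - φ t else 0)) = φ y - φ x := by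
  intro y hxy
  induction y, hxy using Nat.le_induction with
  | base => intro _; simp
  | succ y hxy ih =>
    intro hy1
    have hy : 0 < mg S w L i y := hintv i x y (y + 1) hxy (Nat.le_succ y) hx hy1
    have h1 := ih hy
    have hP : Pd S w L i y := And.intro hy hy1
    rw [Finset.sum_range_succ, if_pos hP]
    linarith

theorem Tel_supp (hw : ∀ l ∈ S, 0 ≤ w l) (hN : ∀ i, ∀ l ∈ S, L i l ≤ N)
    (hintv : ∀ i x y z, x ≤ y → y ≤ z → 0 < mg S w L i x → 0 < mg S w L i z →
      0 < mg S w L i y)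
    (i : κ) (φ : ℕ → ℝ) (l l' : Ω) (hl : l ∈ S) (hl' : l' ∈ S) (h1 : w l ≠ 0) (h2 : w l' ≠ 0) :
    Tel S w L N i φ (L i l) - Tel S w L N i φ (L i l') = φ (L i l) - φ (L i l') := by
  have p1 : 0 < mg S w L i (L i l) :=
    mg_pos_of_mem S w L hw i l hl (lt_of_le_of_ne (hw l hl) (Ne.symm h1))
  have p2 : 0 < mg S w L i (L i l') :=
    mg_pos_of_mem S w L hw i l' hl' (lt_of_le_of_ne (hw l' hl') (Ne.symm h2))
  rw [Tel_eq S w L N i φ _ (hN i l hl), Tel_eq S w L N i φ _ (hN i l' hl')]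
  rcases le_total (L i l') (L i l) with h | h
  · exact tel_aux S w L hintv i φ (L i l') p2 (L i l) h p1
  · have := tel_aux S w L hintv i φ (L i l) p1 (L i l') h p2
    linarith

theorem Fc_eq_Tel (i : κ) (φ : ℕ → ℝ) (e : κ × Fin N → ℝ)
    (he : ∀ γ : κ × Fin N, e γ
      = if γ.1 = i ∧ Pd S w L γ.1 γ.2 then φ ((γ.2 : ℕ) + 1) - φ (γ.2 : ℕ) else 0) (l : Ω) :
    Fc L N e l = Tel S w L N i φ (L i l) := by
  unfold Fc Tel
  refine Finset.sum_congr rfl (fun γ _ => ?_)
  rw [he γ]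
  unfold Hs
  by_cases h : γ.1 = i
  · rw [h]
  · have hn : ¬ (γ.1 = i ∧ Pd S w L γ.1 γ.2) := fun hh => h hh.1
    rw [if_neg hn]; ring

/-- coefficients of `-P(β.2 < L β.1 | L α.1)` in the step basis -/
def eR (α β : κ × Fin N) : κ × Fin N → ℝ := fun γ =>
  if γ.1 = α.1 ∧ Pd S w L γ.1 γ.2 then
    -Rr S w L N β α.1 ((γ.2 : ℕ) + 1) - -Rr S w L N β α.1 (γ.2 : ℕ) else 0

theorem A_eq_GM (hw : ∀ l ∈ S, 0 ≤ w l) (hN : ∀ i, ∀ l ∈ S, L i l ≤ N)
    (hintv : ∀ i x y z, x ≤ y → y ≤ z → 0 < mg S w L i x → 0 < mg S w L i z →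
      0 < mg S w L i y) :
    Amat S w L N = Gmat S w L N * Mmat S w L N := by
  ext α β
  rw [Matrix.mul_apply]
  have e1 : ∀ γ, Gmat S w L N α γ * Mmat S w L N γ β
      = (if α.1 = γ.1 then Kmat S w L N α γ else 0) * Mmat S w L N γ β
        + (if α = γ then (if Pd S w L α.1 α.2 then 0 else 1) * Mmat S w L N γ β else 0) := by
    intro γ
    unfold Gmat
    split_ifs <;> ring
  rw [Finset.sum_congr rfl (fun γ _ => e1 γ), Finset.sum_add_distrib, Finset.sum_ite_eq]
  simp only [Finset.mem_univ, if_true]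
  have e2 : (if Pd S w L α.1 α.2 then (0 : ℝ) else 1) * Mmat S w L N α β = 0 := by
    unfold Mmat
    by_cases hP : Pd S w L α.1 α.2
    · rw [if_pos hP]; ring
    · have hn : ¬ (α.1 ≠ β.1 ∧ Pd S w L α.1 α.2) := fun hh => hP hh.2
      rw [if_neg hn]; ring
  rw [e2, add_zero]
  by_cases hab : α.1 = β.1
  · unfold Amat
    rw [if_pos hab]
    symm
    apply Finset.sum_eq_zero
    intro γ _
    by_cases h1 : α.1 = γ.1
    · have hn : ¬ (γ.1 ≠ β.1 ∧ Pd S w L γ.1 γ.2) := fun hh => hh.1 (h1.symm.trans hab)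
      unfold Mmat
      rw [if_neg hn]; ring
    · rw [if_neg h1]; ring
  · unfold Amat
    rw [if_neg hab]
    have e3 : ∀ γ, (if α.1 = γ.1 then Kmat S w L N α γ else 0) * Mmat S w L N γ β
        = eR S w L N α β γ * Kmat S w L N α γ := by
      intro γ
      unfold eR Mmat
      by_cases h1 : α.1 = γ.1
      · by_cases hP : Pd S w L γ.1 γ.2
        · have hc1 : γ.1 ≠ β.1 ∧ Pd S w L γ.1 γ.2 := ⟨fun h => hab (h1.trans h), hP⟩
          have hc2 : γ.1 = α.1 ∧ Pd S w L γ.1 γ.2 := ⟨h1.symm, hP⟩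
          rw [if_pos h1, if_pos hc1, if_pos hc2, ← h1]; ring
        · have hc1 : ¬ (γ.1 ≠ β.1 ∧ Pd S w L γ.1 γ.2) := fun hh => hP hh.2
          have hc2 : ¬ (γ.1 = α.1 ∧ Pd S w L γ.1 γ.2) := fun hh => hP hh.2
          rw [if_neg hc1, if_neg hc2]; ring
      · have hc2 : ¬ (γ.1 = α.1 ∧ Pd S w L γ.1 γ.2) := fun hh => h1 hh.1.symm
        rw [if_neg h1, if_neg hc2]; ring
    rw [Finset.sum_congr rfl (fun γ _ => e3 γ)]
    have e4 : ∑ γ, eR S w L N α β γ * Kmat S w L N α γ
        = cov S w (Hs L N α) (Fc L N (eR S w L N α β)) := by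
      have hF : Fc L N (eR S w L N α β)
          = fun l => ∑ γ, eR S w L N α β γ * Hs L N γ l := rfl
      rw [hF, cov_sum_right]
      refine Finset.sum_congr rfl (fun γ _ => ?_)
      rw [cov_smul_right]
      rfl
    rw [e4]
    have e5 : cov S w (Hs L N α) (Fc L N (eR S w L N α β))
        = cov S w (Hs L N α) (fun l => - Rr S w L N β α.1 (L α.1 l)) := by
      apply cov_congr_right
      intro l hl l' hl' h1 h2
      rw [Fc_eq_Tel S w L N α.1 (fun x => - Rr S w L N β α.1 x) (eR S w L N α β)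
          (fun γ => rfl) l,
        Fc_eq_Tel S w L N α.1 (fun x => - Rr S w L N β α.1 x) (eR S w L N α β)
          (fun γ => rfl) l']
      exact Tel_supp S w L N hw hN hintv α.1 _ l l' hl hl' h1 h2
    rw [e5]
    have e6 : cov S w (Hs L N α) (fun l => - Rr S w L N β α.1 (L α.1 l))
        = - cov S w (Hs L N α) (fun l => Rr S w L N β α.1 (L α.1 l)) := by
      have h := cov_smul_right S w (Hs L N α) (fun l => Rr S w L N β α.1 (L α.1 l)) (-1)
      simp only [neg_one_mul] at h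
      exact h
    rw [e6]
    congr 1
    have t1 := tower S w L N hw hN α.1 β.1 β.2 (fun x => if (α.2 : ℕ) < x then 1 else 0)
    have t2 := tower S w L N hw hN α.1 β.1 β.2 (fun _ => 1)
    simp only [one_mul] at t2
    beta_reduce at t1
    unfold Kmat cov
    unfold Hs Rr
    rw [t1, t2]

/-- **Abstract (1D) lemma.** -/
theorem oneDim_abs (hw : ∀ l ∈ S, 0 ≤ w l) (hN : ∀ i, ∀ l ∈ S, L i l ≤ N)
    (hmon : ∀ i j, i ≠ j → ∀ u x,
      nu S w L i j u (x + 1) * mg S w L i x ≤ nu S w L i j u x * mg S w L i (x + 1))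
    (hintv : ∀ i x y z, x ≤ y → y ≤ z → 0 < mg S w L i x → 0 < mg S w L i z →
      0 < mg S w L i y)
    (g : κ → ℕ → ℝ) :
    cov S w (fun l => ∑ i, g i (L i l)) (fun l => ∑ i, g i (L i l))
      ≤ 2 * ∑ i, cov S w (fun l => g i (L i l)) (fun l => g i (L i l)) := by
  have hcone := cone_lemma (Gmat S w L N) (Amat S w L N) (Mmat S w L N) (Gmat_symm S w L N)
    (Amat_symm S w L N) (Gmat_posdef S w L N hw) (Gmat_nonneg S w L N hw)
    (Mmat_nonneg S w L N hmon) (A_eq_GM S w L N hw hN hintv) (gram S w L N hw)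
  have hcdef : ∃ c : κ × Fin N → ℝ, ∀ α : κ × Fin N, c α
      = if Pd S w L α.1 α.2 then g α.1 ((α.2 : ℕ) + 1) - g α.1 (α.2 : ℕ) else 0 :=
    ⟨fun α => if Pd S w L α.1 α.2 then g α.1 ((α.2 : ℕ) + 1) - g α.1 (α.2 : ℕ) else 0,
      fun α => rfl⟩
  obtain ⟨c, hc⟩ := hcdef
  have h := hcone c
  rw [qf_A, qf_G] at h
  have hz : ∑ α : κ × Fin N, (if Pd S w L α.1 α.2 then 0 else c α ^ 2) = 0 := by
    apply Finset.sum_eq_zero
    intro α _
    by_cases hP : Pd S w L α.1 α.2
    · rw [if_pos hP]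
    · rw [if_neg hP, hc α, if_neg hP]; ring
  have hr : ∀ i l, Fc L N (restr N i c) l = Tel S w L N i (g i) (L i l) := by
    intro i l
    apply Fc_eq_Tel
    intro γ
    unfold restr
    rw [hc γ]
    by_cases h1 : γ.1 = i
    · by_cases hP : Pd S w L γ.1 γ.2
      · have hc2 : γ.1 = i ∧ Pd S w L γ.1 γ.2 := ⟨h1, hP⟩
        rw [if_pos h1, if_pos hP, if_pos hc2, h1]
      · have hc2 : ¬ (γ.1 = i ∧ Pd S w L γ.1 γ.2) := fun hh => hP hh.2
        rw [if_pos h1, if_neg hP, if_neg hc2]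
    · have hc2 : ¬ (γ.1 = i ∧ Pd S w L γ.1 γ.2) := fun hh => h1 hh.1
      rw [if_neg h1, if_neg hc2]
  have hV : ∀ i, cov S w (Fc L N (restr N i c)) (Fc L N (restr N i c))
      = cov S w (fun l => g i (L i l)) (fun l => g i (L i l)) := by
    intro i
    have hd : ∀ l ∈ S, ∀ l' ∈ S, w l ≠ 0 → w l' ≠ 0 →
        Fc L N (restr N i c) l - Fc L N (restr N i c) l' = g i (L i l) - g i (L i l') := by
      intro l hl l' hl' h1 h2
      rw [hr i l, hr i l']
      exact Tel_supp S w L N hw hN hintv i (g i) l l' hl hl' h1 h2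
    exact cov_congr S w _ _ _ _ hd hd
  have hsum : ∀ l, Fc L N c l = ∑ i, Fc L N (restr N i c) l := by
    intro l
    unfold Fc
    rw [Finset.sum_comm]
    refine Finset.sum_congr rfl (fun γ _ => ?_)
    unfold restr
    simp only [ite_mul, zero_mul, Finset.sum_ite_eq, Finset.mem_univ, if_true]
  have hF : cov S w (Fc L N c) (Fc L N c)
      = cov S w (fun l => ∑ i, g i (L i l)) (fun l => ∑ i, g i (L i l)) := by
    have hd : ∀ l ∈ S, ∀ l' ∈ S, w l ≠ 0 → w l' ≠ 0 →
        Fc L N c l - Fc L N c l' = (∑ i, g i (L i l)) - (∑ i, g i (L i l')) := by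
      intro l hl l' hl' h1 h2
      rw [hsum l, hsum l', ← Finset.sum_sub_distrib, ← Finset.sum_sub_distrib]
      refine Finset.sum_congr rfl (fun i _ => ?_)
      rw [hr i l, hr i l']
      exact Tel_supp S w L N hw hN hintv i (g i) l l' hl hl' h1 h2
    exact cov_congr S w _ _ _ _ hd hd
  rw [hz, hF, Finset.sum_congr rfl (fun i _ => hV i)] at h
  linarith

end stats

end

end Crest.Agent.Helper1.SW
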