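/-
Helper1 / S0453, WP-D2 (insurance, cone route): the (1D) lemma of notes/s0453/PROOF.md §4 for
three log-concave sequences without internal zeros, conditioned on the sum.

`oneDim` : `Z·E[(∑ g_i(l_i))²] − (E[∑ g_i(l_i)])² ≤ 2 ∑_i (Z·E[g_i(l_i)²] − (E[g_i(l_i)])²)`
for the weight `w l = ∏ i, p i (l i)` on `{l : Fin 3 → ℕ | ∑ l = m}`.
-/
import Mathlib
import Crest.Agent.Helper1.SW.LogConcave
import Crest.Agent.Helper1.SW.OneDimAbs

set_option autoImplicit false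

namespace Crest.Agent.Helper1.SW

open Finset

/-- **(1D)**, in the shape fixed by the D2 owner. -/
theorem oneDim (p : Fin 3 → ℕ → ℝ) (hp : ∀ i k, 0 ≤ p i k)
    (hlc : ∀ i k, p i k * p i (k + 2) ≤ p i (k + 1) ^ 2)
    (hint : ∀ i a b c, a ≤ b → b ≤ c → 0 < p i a → 0 < p i c → 0 < p i b) (m : ℕ)
    (g : Fin 3 → ℕ → ℝ) :
    (∑ l ∈ Finset.Nat.antidiagonalTuple 3 m, ∏ i, p i (l i))
        * (∑ l ∈ Finset.Nat.antidiagonalTuple 3 m, (∏ i, p i (l i)) * (∑ i, g i (l i)) ^ 2)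
      - (∑ l ∈ Finset.Nat.antidiagonalTuple 3 m, (∏ i, p i (l i)) * ∑ i, g i (l i)) ^ 2
    ≤ 2 * ∑ i, ((∑ l ∈ Finset.Nat.antidiagonalTuple 3 m, ∏ i, p i (l i))
        * (∑ l ∈ Finset.Nat.antidiagonalTuple 3 m, (∏ i, p i (l i)) * g i (l i) ^ 2)
      - (∑ l ∈ Finset.Nat.antidiagonalTuple 3 m, (∏ i, p i (l i)) * g i (l i)) ^ 2) := by
  have hN : ∀ i : Fin 3, ∀ l ∈ Finset.Nat.antidiagonalTuple 3 m, (fun i l => l i) i l ≤ m := by
    intro i l hl
    rw [Finset.Nat.mem_antidiagonalTuple] at hl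
    rw [← hl]
    exact Finset.single_le_sum (f := fun a => l a) (fun a _ => Nat.zero_le _) (Finset.mem_univ i)
  have h := oneDim_abs (Finset.Nat.antidiagonalTuple 3 m) (fun l => ∏ i, p i (l i))
    (fun i l => l i) m
    (fun l _ => Finset.prod_nonneg (fun a _ => hp a (l a))) hN
    (fun i j hij u x => mon p m hp hlc hint i j hij u x)
    (fun i x y z hxy hyz hx hz => supp_interval p m hp hint i x y z hxy hyz hx hz) g
  unfold cov at h
  simp only [← pow_two] at h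
  exact h

end Crest.Agent.Helper1.SW
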